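import Vale.Agent.P231.X1.J
import Vale.Agent.P231.Fm.Param

/-!
# P231, block X1: smoothness of the complex structure attached to a nonsingular pencil
-/

set_option linter.unusedSectionVars false
set_option linter.deprecated false

open MeasureTheory Set intervalIntegral
open scoped ContDiff Topology Real

namespace Vale.Agent.P231.X1

variable {F G : Type*} [NormedAddCommGroup F] [NormedSpace ℝ F] [NormedAddCommGroup G]
  [NormedSpace ℝ G]

/-- the set of nonsingular pencils -/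
def NonsSet (F G : Type*) [NormedAddCommGroup F] [NormedSpace ℝ F] [NormedAddCommGroup G]
    [NormedSpace ℝ G] : Set ((F →L[ℝ] G) × (F →L[ℝ] G)) := {p | Nons p.1 p.2}

theorem nons_iff_Icc (p : (F →L[ℝ] G) × (F →L[ℝ] G)) :
    Nons p.1 p.2 ↔ ∀ t ∈ Icc 0 (2 * π), (Bt p.1 p.2 t).IsInvertible := by
  refine ⟨fun h t _ => h t, fun h t => ?_⟩
  have hper : Function.Periodic (Bt p.1 p.2) (2 * π) := fun s => by
    simp only [Bt, Real.cos_add_two_pi, Real.sin_add_two_pi]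
  obtain ⟨y, hy, hyt⟩ := hper.exists_mem_Ico₀ Real.two_pi_pos t
  rw [hyt]
  exact h y (Ico_subset_Icc_self hy)

theorem continuous_Bt_uncurry :
    Continuous fun q : ((F →L[ℝ] G) × (F →L[ℝ] G)) × ℝ => Bt q.1.1 q.1.2 q.2 := by
  unfold Bt
  fun_prop

theorem contDiff_Bt_uncurry :
    ContDiff ℝ ∞ fun q : ((F →L[ℝ] G) × (F →L[ℝ] G)) × ℝ => Bt q.1.1 q.1.2 q.2 := by
  unfold Bt
  exact ((Real.contDiff_cos.comp contDiff_snd).smul (contDiff_fst.comp contDiff_fst)).add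
    ((Real.contDiff_sin.comp contDiff_snd).smul (contDiff_snd.comp contDiff_fst))

theorem contDiff_Bd_uncurry :
    ContDiff ℝ ∞ fun q : ((F →L[ℝ] G) × (F →L[ℝ] G)) × ℝ => Bd q.1.1 q.1.2 q.2 := by
  unfold Bd
  exact (((Real.contDiff_sin.comp contDiff_snd).neg).smul (contDiff_fst.comp contDiff_fst)).add
    ((Real.contDiff_cos.comp contDiff_snd).smul (contDiff_snd.comp contDiff_fst))

theorem isOpen_invertible [CompleteSpace F] :
    IsOpen {L : F →L[ℝ] G | L.IsInvertible} := by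
  rw [isOpen_iff_mem_nhds]
  rintro _ ⟨e, rfl⟩
  have := ContinuousLinearEquiv.nhds e
  exact Filter.mem_of_superset this (by rintro _ ⟨e', rfl⟩; exact ⟨e', rfl⟩)

theorem isOpen_nonsSet [CompleteSpace F] : IsOpen (NonsSet F G) := by
  have h1 : IsOpen {q : ((F →L[ℝ] G) × (F →L[ℝ] G)) × ℝ | (Bt q.1.1 q.1.2 q.2).IsInvertible} :=
    (isOpen_invertible (F := F) (G := G)).preimage continuous_Bt_uncurry
  rw [isOpen_iff_mem_nhds]
  intro p hp
  have h2 : ∀ᶠ q in 𝓝 p, ∀ t ∈ Icc 0 (2 * π), (Bt q.1 q.2 t).IsInvertible := by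
    refine isCompact_Icc.eventually_forall_of_forall_eventually fun t _ => ?_
    exact h1.mem_nhds (hp t)
  filter_upwards [h2] with q hq
  exact (nons_iff_Icc q).2 hq

/-- integrals over `[0, π]` of smooth functions depend smoothly on parameters -/
theorem contDiffOn_integral_pi {P V : Type*} [NormedAddCommGroup P] [NormedSpace ℝ P]
    [NormedAddCommGroup V] [NormedSpace ℝ V] [CompleteSpace V] {U : Set P} (hU : IsOpen U)
    {g : P × ℝ → V} (hg : ContDiffOn ℝ ∞ g (U ×ˢ univ)) :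
    ContDiffOn ℝ ∞ (fun x => ∫ t in (0:ℝ)..π, g (x, t)) U := by
  let b : ContDiffBump (0 : ℝ) := ⟨π, π + 1, Real.pi_pos, by linarith⟩
  have hb1 : ∀ t ∈ Ioc 0 π, b t = 1 := fun t ht => by
    refine b.one_of_mem_closedBall ?_
    rw [mem_closedBall_zero_iff, Real.norm_eq_abs, abs_of_pos ht.1]
    exact ht.2
  have hb2 : ∀ t ∉ Metric.closedBall (0:ℝ) (π + 1), b t = 0 := fun t ht => by
    refine b.zero_of_le_dist ?_
    rw [Metric.mem_closedBall, not_le] at ht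
    exact ht.le
  have hloc : LocallyIntegrable ((Ioc (0:ℝ) π).indicator fun _ => (1:ℝ)) volume :=
    (locallyIntegrable_const (1:ℝ)).indicator measurableSet_Ioc
  have hsm : ContDiffOn ℝ ∞ (fun q : P × ℝ => b q.2 • g q) (U ×ˢ univ) :=
    ((b.contDiff.comp contDiff_snd).contDiffOn).smul hg
  have h1 := Fm.contDiffOn_param (n := ⊤) volume hU (isCompact_closedBall (0:ℝ) (π + 1)) hloc
    hsm (fun x _ y hy => by simp only [hb2 y hy, zero_smul])
  refine ContDiffOn.congr h1 fun x _ => ?_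
  rw [intervalIntegral.integral_of_le Real.pi_pos.le, ←
    MeasureTheory.integral_indicator measurableSet_Ioc]
  refine integral_congr_ae (Filter.Eventually.of_forall fun t => ?_)
  by_cases ht : t ∈ Ioc 0 π
  · simp only [indicator_of_mem ht, hb1 t ht, one_smul]
  · simp only [indicator_of_notMem ht, zero_smul]

theorem contDiffOn_inv [CompleteSpace F] :
    ContDiffOn ℝ ∞ (fun q : ((F →L[ℝ] G) × (F →L[ℝ] G)) × ℝ => (Bt q.1.1 q.1.2 q.2).inverse)
      (NonsSet F G ×ˢ univ) := by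
  rintro ⟨p, t⟩ ⟨hp, -⟩
  refine ContDiffAt.contDiffWithinAt ?_
  have h1 : ContDiffAt ℝ ∞ (ContinuousLinearMap.inverse : (F →L[ℝ] G) → (G →L[ℝ] F))
      (Bt p.1 p.2 t) := (hp t).contDiffAt_map_inverse
  exact ContDiffAt.comp (f := fun q : ((F →L[ℝ] G) × (F →L[ℝ] G)) × ℝ => Bt q.1.1 q.1.2 q.2)
    (p, t) h1 contDiff_Bt_uncurry.contDiffAt

theorem contDiffOn_gg [CompleteSpace F] :
    ContDiffOn ℝ ∞ (fun q : ((F →L[ℝ] G) × (F →L[ℝ] G)) × ℝ => gg q.1.1 q.1.2 q.2)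
      (NonsSet F G ×ˢ univ) :=
  contDiffOn_inv.clm_comp contDiff_Bd_uncurry.contDiffOn

theorem contDiffOn_gg' [CompleteSpace F] :
    ContDiffOn ℝ ∞ (fun q : ((F →L[ℝ] G) × (F →L[ℝ] G)) × ℝ => gg' q.1.1 q.1.2 q.2)
      (NonsSet F G ×ˢ univ) :=
  contDiff_Bd_uncurry.contDiffOn.clm_comp contDiffOn_inv

theorem contDiffOn_J2 [CompleteSpace F] :
    ContDiffOn ℝ ∞ (fun p : (F →L[ℝ] G) × (F →L[ℝ] G) => J2 p.1 p.2) (NonsSet F G) := by
  have h1 := contDiffOn_integral_pi isOpen_nonsSet (contDiffOn_gg (F := F) (G := G))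
  unfold J2
  exact h1.const_smul π⁻¹

theorem contDiffOn_J1 [CompleteSpace F] [CompleteSpace G] :
    ContDiffOn ℝ ∞ (fun p : (F →L[ℝ] G) × (F →L[ℝ] G) => J1 p.1 p.2) (NonsSet F G) := by
  have h1 := contDiffOn_integral_pi isOpen_nonsSet (contDiffOn_gg' (F := F) (G := G))
  unfold J1
  exact h1.const_smul π⁻¹

theorem contDiffOn_TT [CompleteSpace F] :
    ContDiffOn ℝ ∞ (fun p : (F →L[ℝ] G) × (F →L[ℝ] G) => TT p.1 p.2) (NonsSet F G) :=
  contDiffOn_fst.sub (contDiffOn_snd.clm_comp contDiffOn_J2)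

theorem contDiffOn_TT_inverse [FiniteDimensional ℝ F] :
    ContDiffOn ℝ ∞ (fun p : (F →L[ℝ] G) × (F →L[ℝ] G) => (TT p.1 p.2).inverse) (NonsSet F G) := by
  have : CompleteSpace F := FiniteDimensional.complete ℝ F
  intro p hp
  have h1 : ContDiffAt ℝ ∞ (ContinuousLinearMap.inverse : (F →L[ℝ] G) → (G →L[ℝ] F))
      (TT p.1 p.2) := (TT_isInvertible hp).contDiffAt_map_inverse
  exact ContDiffAt.comp_contDiffWithinAt (f := fun p : (F →L[ℝ] G) × (F →L[ℝ] G) => TT p.1 p.2)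
    p h1 (contDiffOn_TT p hp)

/-! ### naturality -/

theorem inverse_conj (P : F ≃L[ℝ] F) (Q : G ≃L[ℝ] G) {A : F →L[ℝ] G} (hA : A.IsInvertible) :
    ((Q : G →L[ℝ] G) ∘L A ∘L (P : F →L[ℝ] F)).inverse =
      (P.symm : F →L[ℝ] F) ∘L A.inverse ∘L (Q.symm : G →L[ℝ] G) := by
  obtain ⟨e, rfl⟩ := hA
  have : ((Q : G →L[ℝ] G) ∘L (e : F →L[ℝ] G) ∘L (P : F →L[ℝ] F)) =
      ((P.trans e).trans Q : F ≃L[ℝ] G) := by
    ext x; rfl
  rw [this, ContinuousLinearMap.inverse_equiv, ContinuousLinearMap.inverse_equiv]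
  ext x; rfl

/-- an odd-dimensional space carries no nonsingular pencil: the dimension is even -/
theorem even_finrank [FiniteDimensional ℝ F] {B0 B1 : F →L[ℝ] G} (h : Nons B0 B1) :
    Even (Module.finrank ℝ F) := by
  have : CompleteSpace F := FiniteDimensional.complete ℝ F
  by_contra hodd
  rw [Nat.not_even_iff_odd] at hodd
  have h1 := J2_sq h
  have h2 : LinearMap.det ((J2 B0 B1 : F →ₗ[ℝ] F)) * LinearMap.det ((J2 B0 B1 : F →ₗ[ℝ] F)) =
      (-1 : ℝ) ^ Module.finrank ℝ F := by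
    rw [← LinearMap.det_comp]
    have h3 : ((J2 B0 B1 : F →ₗ[ℝ] F)) ∘ₗ ((J2 B0 B1 : F →ₗ[ℝ] F)) =
        (-1 : ℝ) • (LinearMap.id : F →ₗ[ℝ] F) := by
      ext v
      have := congrArg (fun L : F →L[ℝ] F => L v) h1
      simpa using this
    rw [h3, LinearMap.det_smul, LinearMap.det_id, mul_one]
  rw [hodd.neg_one_pow] at h2
  nlinarith [mul_self_nonneg (LinearMap.det ((J2 B0 B1 : F →ₗ[ℝ] F)))]

end Vale.Agent.P231.X1
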