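import Mathlib

/-!
# P231, block X1: the complex structure attached to a nonsingular pencil

`B0 B1 : F →L[ℝ] G` with `B_t = cos t • B0 + sin t • B1` invertible for every `t`.
Put `B'_t = -sin t • B0 + cos t • B1`, `g t = B_t⁻¹ B'_t` and
`J₂ = (1/π) ∫_0^π g`, `J₁ = (1/π) ∫_0^π B'_t B_t⁻¹`.
Then `J₂² = -1`, `B_t J₂ = J₁ B_t`, everything depends only on the oriented plane, and
`T = B0 - B1 J₂` is an isomorphism which intertwines `J₂` and `J₁` and is multiplied by
`exp (φ J₂)` under the rotation by `φ`.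
-/

set_option linter.unusedSectionVars false
set_option linter.deprecated false

open MeasureTheory Set intervalIntegral
open scoped ContDiff Topology Real

namespace Vale.Agent.P231.X1

variable {F G : Type*} [NormedAddCommGroup F] [NormedSpace ℝ F] [NormedAddCommGroup G]
  [NormedSpace ℝ G]

/-- the pencil -/
noncomputable def Bt (B0 B1 : F →L[ℝ] G) (t : ℝ) : F →L[ℝ] G := Real.cos t • B0 + Real.sin t • B1

/-- the derivative of the pencil -/
noncomputable def Bd (B0 B1 : F →L[ℝ] G) (t : ℝ) : F →L[ℝ] G :=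
  (-Real.sin t) • B0 + Real.cos t • B1

/-- nonsingular pencils -/
def Nons (B0 B1 : F →L[ℝ] G) : Prop := ∀ t : ℝ, (Bt B0 B1 t).IsInvertible

/-- the integrand -/
noncomputable def gg (B0 B1 : F →L[ℝ] G) (t : ℝ) : F →L[ℝ] F :=
  (Bt B0 B1 t).inverse ∘L Bd B0 B1 t

/-- the integrand on the other side -/
noncomputable def gg' (B0 B1 : F →L[ℝ] G) (t : ℝ) : G →L[ℝ] G :=
  Bd B0 B1 t ∘L (Bt B0 B1 t).inverse

/-- the complex structure on the source -/
noncomputable def J2 (B0 B1 : F →L[ℝ] G) : F →L[ℝ] F := π⁻¹ • ∫ t in (0:ℝ)..π, gg B0 B1 t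

/-- the complex structure on the target -/
noncomputable def J1 (B0 B1 : F →L[ℝ] G) : G →L[ℝ] G := π⁻¹ • ∫ t in (0:ℝ)..π, gg' B0 B1 t

section
variable {B0 B1 : F →L[ℝ] G}

theorem Bt_add (s t : ℝ) :
    Bt B0 B1 (t + s) = Real.cos s • Bt B0 B1 t + Real.sin s • Bd B0 B1 t := by
  simp only [Bt, Bd, Real.cos_add, Real.sin_add]
  module

theorem Bd_add (s t : ℝ) :
    Bd B0 B1 (t + s) = (-Real.sin s) • Bt B0 B1 t + Real.cos s • Bd B0 B1 t := by
  simp only [Bt, Bd, Real.cos_add, Real.sin_add]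
  module

theorem Bt_pi (t : ℝ) : Bt B0 B1 (t + π) = -Bt B0 B1 t := by
  rw [Bt_add]; simp

theorem Bd_pi (t : ℝ) : Bd B0 B1 (t + π) = -Bd B0 B1 t := by
  rw [Bd_add]; simp

@[simp] theorem Bt_zero : Bt B0 B1 0 = B0 := by simp [Bt]

@[simp] theorem Bd_zero : Bd B0 B1 0 = B1 := by simp [Bd]

/-- rotating the basis -/
theorem Bt_rot (s t : ℝ) : Bt (Bt B0 B1 s) (Bd B0 B1 s) t = Bt B0 B1 (s + t) := by
  rw [Bt_add]; rfl

theorem Bd_rot (s t : ℝ) : Bd (Bt B0 B1 s) (Bd B0 B1 s) t = Bd B0 B1 (s + t) := by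
  rw [Bd_add]; rfl

theorem Nons.rot (h : Nons B0 B1) (s : ℝ) : Nons (Bt B0 B1 s) (Bd B0 B1 s) := fun t => by
  rw [Bt_rot]; exact h _

theorem inv_neg' (A : F →L[ℝ] G) (hA : A.IsInvertible) : (-A).inverse = -A.inverse := by
  obtain ⟨e, rfl⟩ := hA
  have : (-(e : F →L[ℝ] G)) = ((e.trans (ContinuousLinearEquiv.neg ℝ)) : F ≃L[ℝ] G) := by
    ext x; simp
  rw [this, ContinuousLinearMap.inverse_equiv, ContinuousLinearMap.inverse_equiv]
  ext x; simp

theorem inv_comp {A : F →L[ℝ] G} (hA : A.IsInvertible) :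
    A.inverse ∘L A = ContinuousLinearMap.id ℝ F := by
  obtain ⟨e, rfl⟩ := hA
  rw [ContinuousLinearMap.inverse_equiv]; ext x; simp

theorem comp_inv {A : F →L[ℝ] G} (hA : A.IsInvertible) :
    A ∘L A.inverse = ContinuousLinearMap.id ℝ G := by
  obtain ⟨e, rfl⟩ := hA
  rw [ContinuousLinearMap.inverse_equiv]; ext x; simp

theorem gg_periodic (h : Nons B0 B1) : Function.Periodic (gg B0 B1) π := fun t => by
  rw [gg, gg, Bt_pi, Bd_pi, inv_neg' _ (h t)]
  ext x; simp

theorem gg'_periodic (h : Nons B0 B1) : Function.Periodic (gg' B0 B1) π := fun t => by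
  rw [gg', gg', Bt_pi, Bd_pi, inv_neg' _ (h t)]
  ext x; simp

theorem Bt_gg (h : Nons B0 B1) (t : ℝ) : Bt B0 B1 t ∘L gg B0 B1 t = Bd B0 B1 t := by
  rw [gg, ← ContinuousLinearMap.comp_assoc, comp_inv (h t), ContinuousLinearMap.id_comp]

theorem gg'_Bt (h : Nons B0 B1) (t : ℝ) : gg' B0 B1 t ∘L Bt B0 B1 t = Bd B0 B1 t := by
  rw [gg', ContinuousLinearMap.comp_assoc, inv_comp (h t), ContinuousLinearMap.comp_id]

/-- `B_s g_t = g'_t B_s` -/
theorem Bt_gg_eq (h : Nons B0 B1) (s t : ℝ) :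
    Bt B0 B1 s ∘L gg B0 B1 t = gg' B0 B1 t ∘L Bt B0 B1 s := by
  have hs : s = t + (s - t) := by ring
  rw [hs, Bt_add]
  simp only [ContinuousLinearMap.add_comp, ContinuousLinearMap.comp_add,
    ContinuousLinearMap.smul_comp, ContinuousLinearMap.comp_smul]
  rw [Bt_gg h, gg'_Bt h]
  congr 2

/-- the resolvent identity -/
theorem gg_resolvent (h : Nons B0 B1) (t d : ℝ) :
    Real.sin d • (gg B0 B1 (t + d) ∘L gg B0 B1 t) =
      -(Real.sin d • ContinuousLinearMap.id ℝ F) -
        Real.cos d • (gg B0 B1 (t + d) - gg B0 B1 t) := by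
  have h1 : Bt B0 B1 (t + d) ∘L gg B0 B1 (t + d) = Bd B0 B1 (t + d) := Bt_gg h _
  -- commute: `g_{t+d}` and `g_t`
  have hc : gg B0 B1 (t + d) ∘L gg B0 B1 t = gg B0 B1 t ∘L gg B0 B1 (t + d) := by
    have e1 : Bt B0 B1 t ∘L (gg B0 B1 (t + d) ∘L gg B0 B1 t) =
        Bt B0 B1 t ∘L (gg B0 B1 t ∘L gg B0 B1 (t + d)) := by
      rw [← ContinuousLinearMap.comp_assoc, Bt_gg_eq h, ContinuousLinearMap.comp_assoc, Bt_gg h,
        ← ContinuousLinearMap.comp_assoc, Bt_gg h]
      have hd : Bd B0 B1 t ∘L gg B0 B1 (t + d) = gg' B0 B1 (t + d) ∘L Bd B0 B1 t := by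
        have h3 : Bd B0 B1 t = Bt B0 B1 (t + π / 2) := by rw [Bt_add]; simp
        rw [h3, Bt_gg_eq h]
      rw [hd]
    have e2 := congrArg (fun L => (Bt B0 B1 t).inverse ∘L L) e1
    simp only [← ContinuousLinearMap.comp_assoc] at e2
    rw [inv_comp (h t)] at e2
    simpa [ContinuousLinearMap.comp_assoc] using e2
  have h2 : (Real.cos d • ContinuousLinearMap.id ℝ F + Real.sin d • gg B0 B1 t) ∘L
      gg B0 B1 (t + d) =
      (-Real.sin d) • ContinuousLinearMap.id ℝ F + Real.cos d • gg B0 B1 t := by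
    have e3 : Bt B0 B1 t ∘L ((Real.cos d • ContinuousLinearMap.id ℝ F +
        Real.sin d • gg B0 B1 t) ∘L gg B0 B1 (t + d)) =
        Bt B0 B1 t ∘L ((-Real.sin d) • ContinuousLinearMap.id ℝ F +
          Real.cos d • gg B0 B1 t) := by
      have e4 : Bt B0 B1 t ∘L (Real.cos d • ContinuousLinearMap.id ℝ F +
          Real.sin d • gg B0 B1 t) = Bt B0 B1 (t + d) := by
        rw [Bt_add, ContinuousLinearMap.comp_add, ContinuousLinearMap.comp_smul,
          ContinuousLinearMap.comp_smul, Bt_gg h, ContinuousLinearMap.comp_id]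
      rw [← ContinuousLinearMap.comp_assoc, e4, h1, Bd_add, ContinuousLinearMap.comp_add,
        ContinuousLinearMap.comp_smul, ContinuousLinearMap.comp_smul, Bt_gg h,
        ContinuousLinearMap.comp_id]
    have e5 := congrArg (fun L => (Bt B0 B1 t).inverse ∘L L) e3
    simp only [← ContinuousLinearMap.comp_assoc] at e5
    rw [inv_comp (h t)] at e5
    simpa [ContinuousLinearMap.comp_assoc] using e5
  rw [hc]
  rw [ContinuousLinearMap.add_comp, ContinuousLinearMap.smul_comp, ContinuousLinearMap.smul_comp,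
    ContinuousLinearMap.id_comp] at h2
  have h3 : Real.sin d • (gg B0 B1 t ∘L gg B0 B1 (t + d)) =
      ((-Real.sin d) • ContinuousLinearMap.id ℝ F + Real.cos d • gg B0 B1 t) -
        Real.cos d • gg B0 B1 (t + d) := by
    rw [← h2]; abel
  rw [h3]
  module

theorem gg_comm (h : Nons B0 B1) (s t : ℝ) :
    gg B0 B1 s ∘L gg B0 B1 t = gg B0 B1 t ∘L gg B0 B1 s := by
  have e1 : Bt B0 B1 t ∘L (gg B0 B1 s ∘L gg B0 B1 t) =
      Bt B0 B1 t ∘L (gg B0 B1 t ∘L gg B0 B1 s) := by
    rw [← ContinuousLinearMap.comp_assoc, Bt_gg_eq h, ContinuousLinearMap.comp_assoc, Bt_gg h,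
      ← ContinuousLinearMap.comp_assoc, Bt_gg h]
    have h3 : Bd B0 B1 t = Bt B0 B1 (t + π / 2) := by rw [Bt_add]; simp
    rw [h3, Bt_gg_eq h]
  have e2 := congrArg (fun L => (Bt B0 B1 t).inverse ∘L L) e1
  simp only [← ContinuousLinearMap.comp_assoc] at e2
  rw [inv_comp (h t)] at e2
  simpa [ContinuousLinearMap.comp_assoc] using e2

/-! ### commutation relations -/

theorem gg_J_comm_aux (h : Nons B0 B1) (t : ℝ) :
    Bd B0 B1 t ∘L gg B0 B1 t = gg' B0 B1 t ∘L Bd B0 B1 t := by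
  have h3 : Bd B0 B1 t = Bt B0 B1 (t + π / 2) := by rw [Bt_add]; simp
  rw [h3, Bt_gg_eq h]

theorem Bd_gg_eq (h : Nons B0 B1) (s t : ℝ) :
    Bd B0 B1 s ∘L gg B0 B1 t = gg' B0 B1 t ∘L Bd B0 B1 s := by
  have h3 : Bd B0 B1 s = Bt B0 B1 (s + π / 2) := by rw [Bt_add]; simp
  rw [h3, Bt_gg_eq h]

theorem complete_target [CompleteSpace F] (h : Nons B0 B1) : CompleteSpace G := by
  obtain ⟨e, _⟩ := h 0
  exact (completeSpace_congr (e := e.toEquiv) e.isUniformEmbedding).1 inferInstance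

section complete
variable [CompleteSpace F]

theorem continuous_Bt : Continuous (Bt B0 B1) := by
  unfold Bt
  fun_prop

theorem continuous_Bd : Continuous (Bd B0 B1) := by
  unfold Bd
  fun_prop

theorem continuous_inv (h : Nons B0 B1) : Continuous fun t => (Bt B0 B1 t).inverse := by
  rw [continuous_iff_continuousAt]
  intro t
  have h1 : ContinuousAt (ContinuousLinearMap.inverse : (F →L[ℝ] G) → (G →L[ℝ] F))
      (Bt B0 B1 t) := ((h t).contDiffAt_map_inverse (n := 0)).continuousAt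
  exact ContinuousAt.comp (f := Bt B0 B1) h1 continuous_Bt.continuousAt

theorem continuous_gg (h : Nons B0 B1) : Continuous (gg B0 B1) :=
  (continuous_inv h).clm_comp continuous_Bd

theorem continuous_gg' (h : Nons B0 B1) : Continuous (gg' B0 B1) :=
  continuous_Bd.clm_comp (continuous_inv h)

theorem integral_gg_shift (h : Nons B0 B1) (s : ℝ) :
    ∫ t in (0:ℝ)..π, gg B0 B1 (t + s) = ∫ t in (0:ℝ)..π, gg B0 B1 t := by
  rw [intervalIntegral.integral_comp_add_right]
  have := (gg_periodic h).intervalIntegral_add_eq s 0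
  simpa [add_comm] using this

theorem integral_gg'_shift (h : Nons B0 B1) (s : ℝ) :
    ∫ t in (0:ℝ)..π, gg' B0 B1 (t + s) = ∫ t in (0:ℝ)..π, gg' B0 B1 t := by
  rw [intervalIntegral.integral_comp_add_right]
  have := (gg'_periodic h).intervalIntegral_add_eq s 0
  simpa [add_comm] using this

theorem integral_gg_gg (h : Nons B0 B1) {d : ℝ} (hd : Real.sin d ≠ 0) :
    ∫ t in (0:ℝ)..π, gg B0 B1 (t + d) ∘L gg B0 B1 t = -(π • ContinuousLinearMap.id ℝ F) := by
  have hc : Continuous (gg B0 B1) := continuous_gg h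
  have hc2 : Continuous fun t => gg B0 B1 (t + d) := hc.comp (continuous_id.add continuous_const)
  have h1 : ∫ t in (0:ℝ)..π, Real.sin d • (gg B0 B1 (t + d) ∘L gg B0 B1 t) =
      ∫ t in (0:ℝ)..π, (-(Real.sin d • ContinuousLinearMap.id ℝ F) -
        Real.cos d • (gg B0 B1 (t + d) - gg B0 B1 t)) := by
    simp_rw [gg_resolvent h]
  have hi1 : IntervalIntegrable (fun _ : ℝ => -(Real.sin d • ContinuousLinearMap.id ℝ F))
      volume 0 π := continuous_const.intervalIntegrable _ _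
  have hc3 : Continuous (fun t => Real.cos d • (gg B0 B1 (t + d) - gg B0 B1 t)) := by
    fun_prop
  have hi2 : IntervalIntegrable (fun t => Real.cos d • (gg B0 B1 (t + d) - gg B0 B1 t))
      volume 0 π := hc3.intervalIntegrable _ _
  rw [intervalIntegral.integral_smul, intervalIntegral.integral_sub hi1 hi2,
    intervalIntegral.integral_smul,
    intervalIntegral.integral_sub (hc2.intervalIntegrable _ _) (hc.intervalIntegrable _ _),
    integral_gg_shift h, sub_self, smul_zero, sub_zero, intervalIntegral.integral_const,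
    sub_zero] at h1
  have h2 : Real.sin d • ∫ t in (0:ℝ)..π, gg B0 B1 (t + d) ∘L gg B0 B1 t =
      Real.sin d • -(π • ContinuousLinearMap.id ℝ F) := by
    rw [h1]; module
  exact smul_right_injective _ hd h2

theorem J2_sq (h : Nons B0 B1) : J2 B0 B1 ∘L J2 B0 B1 = -ContinuousLinearMap.id ℝ F := by
  have hc : Continuous (gg B0 B1) := continuous_gg h
  have key : (∫ s in (0:ℝ)..π, gg B0 B1 s) ∘L (∫ t in (0:ℝ)..π, gg B0 B1 t) =
      -((π * π) • ContinuousLinearMap.id ℝ F) := by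
    have e1 : (∫ s in (0:ℝ)..π, gg B0 B1 s) ∘L (∫ t in (0:ℝ)..π, gg B0 B1 t) =
        ∫ t in (0:ℝ)..π, (∫ s in (0:ℝ)..π, gg B0 B1 s) ∘L gg B0 B1 t := by
      have := (ContinuousLinearMap.compL ℝ F F F
        (∫ s in (0:ℝ)..π, gg B0 B1 s)).intervalIntegral_comp_comm
        (hc.intervalIntegrable (μ := volume) 0 π)
      simpa using this.symm
    have e2 : ∀ t : ℝ, (∫ s in (0:ℝ)..π, gg B0 B1 s) ∘L gg B0 B1 t =
        ∫ d in (0:ℝ)..π, gg B0 B1 (t + d) ∘L gg B0 B1 t := by
      intro t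
      have h0 : ∫ s in (0:ℝ)..π, gg B0 B1 s = ∫ d in (0:ℝ)..π, gg B0 B1 (t + d) := by
        rw [← integral_gg_shift h t]
        simp_rw [add_comm t]
      rw [h0]
      have hc3 : Continuous fun d => gg B0 B1 (t + d) :=
        hc.comp (continuous_const.add continuous_id)
      have := ((ContinuousLinearMap.compL ℝ F F F).flip
        (gg B0 B1 t)).intervalIntegral_comp_comm (hc3.intervalIntegrable (μ := volume) 0 π)
      simpa using this.symm
    rw [e1]
    simp_rw [e2]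
    have hcc : Continuous fun p : ℝ × ℝ => gg B0 B1 (p.1 + p.2) ∘L gg B0 B1 p.1 :=
      (hc.comp (continuous_fst.add continuous_snd)).clm_comp (hc.comp continuous_fst)
    have hswap : ∫ t in (0:ℝ)..π, ∫ d in (0:ℝ)..π, gg B0 B1 (t + d) ∘L gg B0 B1 t =
        ∫ d in (0:ℝ)..π, ∫ t in (0:ℝ)..π, gg B0 B1 (t + d) ∘L gg B0 B1 t := by
      simp_rw [intervalIntegral.integral_of_le Real.pi_pos.le]
      refine MeasureTheory.integral_integral_swap
        (f := fun t d => gg B0 B1 (t + d) ∘L gg B0 B1 t) ?_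
      rw [Measure.prod_restrict]
      refine IntegrableOn.mono_set ?_ (Set.prod_mono Ioc_subset_Icc_self Ioc_subset_Icc_self)
      exact hcc.continuousOn.integrableOn_compact (isCompact_Icc.prod isCompact_Icc)
    rw [hswap]
    have h3 : ∫ d in (0:ℝ)..π, ∫ t in (0:ℝ)..π, gg B0 B1 (t + d) ∘L gg B0 B1 t =
        ∫ _d in (0:ℝ)..π, -(π • ContinuousLinearMap.id ℝ F) := by
      rw [intervalIntegral.integral_of_le Real.pi_pos.le,
        intervalIntegral.integral_of_le Real.pi_pos.le,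
        integral_Ioc_eq_integral_Ioo, integral_Ioc_eq_integral_Ioo]
      refine setIntegral_congr_fun measurableSet_Ioo fun d hd => ?_
      exact integral_gg_gg h (Real.sin_pos_of_mem_Ioo hd).ne'
    rw [h3, intervalIntegral.integral_const, sub_zero, smul_neg, smul_smul]
  rw [J2, ContinuousLinearMap.smul_comp, ContinuousLinearMap.comp_smul, key, smul_smul, smul_neg,
    smul_smul]
  have : π⁻¹ * π⁻¹ * (π * π) = 1 := by field_simp
  rw [this, one_smul]

/-- `B_s J₂ = J₁ B_s` -/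
theorem Bt_J2 (h : Nons B0 B1) (s : ℝ) : Bt B0 B1 s ∘L J2 B0 B1 = J1 B0 B1 ∘L Bt B0 B1 s := by
  have := complete_target h
  have hc : Continuous (gg B0 B1) := continuous_gg h
  have hc' : Continuous (gg' B0 B1) := continuous_gg' h
  rw [J2, J1, ContinuousLinearMap.comp_smul, ContinuousLinearMap.smul_comp]
  congr 1
  have h1 := (ContinuousLinearMap.compL ℝ F F G (Bt B0 B1 s)).intervalIntegral_comp_comm
    (hc.intervalIntegrable (μ := volume) 0 π)
  have h2 := ((ContinuousLinearMap.compL ℝ F G G).flip (Bt B0 B1 s)).intervalIntegral_comp_comm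
    (hc'.intervalIntegrable (μ := volume) 0 π)
  simp only [ContinuousLinearMap.compL_apply, ContinuousLinearMap.flip_apply] at h1 h2
  rw [← h1, ← h2]
  simp_rw [Bt_gg_eq h]

theorem Bd_J2 (h : Nons B0 B1) (s : ℝ) : Bd B0 B1 s ∘L J2 B0 B1 = J1 B0 B1 ∘L Bd B0 B1 s := by
  have h3 : Bd B0 B1 s = Bt B0 B1 (s + π / 2) := by rw [Bt_add]; simp
  rw [h3, Bt_J2 h]

theorem J1_eq (h : Nons B0 B1) (s : ℝ) :
    J1 B0 B1 = Bt B0 B1 s ∘L J2 B0 B1 ∘L (Bt B0 B1 s).inverse := by
  rw [← ContinuousLinearMap.comp_assoc, Bt_J2 h, ContinuousLinearMap.comp_assoc, comp_inv (h s),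
    ContinuousLinearMap.comp_id]

theorem J1_sq (h : Nons B0 B1) : J1 B0 B1 ∘L J1 B0 B1 = -ContinuousLinearMap.id ℝ G := by
  have h1 : J1 B0 B1 ∘L J1 B0 B1 ∘L Bt B0 B1 0 = -Bt B0 B1 0 := by
    rw [← Bt_J2 h, ← ContinuousLinearMap.comp_assoc, ← Bt_J2 h, ContinuousLinearMap.comp_assoc,
      J2_sq h]
    simp
  have h2 := congrArg (fun L => L ∘L (Bt B0 B1 0).inverse) h1
  simp only [ContinuousLinearMap.comp_assoc, comp_inv (h 0), ContinuousLinearMap.comp_id,
    ContinuousLinearMap.neg_comp] at h2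
  exact h2

/-- the complex structures depend only on the oriented plane -/
theorem J2_rot (h : Nons B0 B1) (s : ℝ) : J2 (Bt B0 B1 s) (Bd B0 B1 s) = J2 B0 B1 := by
  rw [J2, J2]
  congr 1
  rw [← integral_gg_shift h s]
  refine intervalIntegral.integral_congr fun t _ => ?_
  simp only [gg, Bt_rot, Bd_rot, add_comm s t]

theorem J1_rot (h : Nons B0 B1) (s : ℝ) : J1 (Bt B0 B1 s) (Bd B0 B1 s) = J1 B0 B1 := by
  rw [J1, J1]
  congr 1
  rw [← integral_gg'_shift h s]
  refine intervalIntegral.integral_congr fun t _ => ?_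
  simp only [gg', Bt_rot, Bd_rot, add_comm s t]

end complete

/-! ### reversing the orientation -/

theorem Bt_flip (t : ℝ) : Bt B0 (-B1) t = Bt B0 B1 (-t) := by
  simp only [Bt, Real.cos_neg, Real.sin_neg]; module

theorem Bd_flip (t : ℝ) : Bd B0 (-B1) t = -Bd B0 B1 (-t) := by
  simp only [Bd, Real.cos_neg, Real.sin_neg]; module

theorem Nons.flip (h : Nons B0 B1) : Nons B0 (-B1) := fun t => by
  rw [Bt_flip]; exact h _

theorem J2_flip [CompleteSpace F] (h : Nons B0 B1) : J2 B0 (-B1) = -J2 B0 B1 := by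
  rw [J2, J2, ← smul_neg]
  congr 1
  have h1 : ∀ t, gg B0 (-B1) t = -gg B0 B1 (-t) := fun t => by
    rw [gg, gg, Bt_flip, Bd_flip, ContinuousLinearMap.comp_neg]
  simp_rw [h1]
  rw [intervalIntegral.integral_neg, intervalIntegral.integral_comp_neg]
  congr 1
  have := (gg_periodic h).intervalIntegral_add_eq (-π) 0
  simpa using this

theorem J1_flip [CompleteSpace F] (h : Nons B0 B1) : J1 B0 (-B1) = -J1 B0 B1 := by
  rw [J1, J1, ← smul_neg]
  congr 1
  have h1 : ∀ t, gg' B0 (-B1) t = -gg' B0 B1 (-t) := fun t => by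
    rw [gg', gg', Bt_flip, Bd_flip, ContinuousLinearMap.neg_comp]
  simp_rw [h1]
  rw [intervalIntegral.integral_neg, intervalIntegral.integral_comp_neg]
  congr 1
  have := (gg'_periodic h).intervalIntegral_add_eq (-π) 0
  simpa using this

/-! ### the twisted isomorphism -/

/-- `T = B₀ - B₁ J₂` -/
noncomputable def TT (B0 B1 : F →L[ℝ] G) : F →L[ℝ] G := B0 - B1 ∘L J2 B0 B1

theorem TT_J2 [CompleteSpace F] (h : Nons B0 B1) :
    TT B0 B1 ∘L J2 B0 B1 = J1 B0 B1 ∘L TT B0 B1 := by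
  have h0 := Bt_J2 h 0
  have h1 := Bd_J2 h 0
  rw [Bt_zero] at h0
  rw [Bd_zero] at h1
  rw [TT, ContinuousLinearMap.sub_comp, ContinuousLinearMap.comp_sub, h0, h1,
    ContinuousLinearMap.comp_assoc, h1]

theorem TT_rot [CompleteSpace F] (h : Nons B0 B1) (s : ℝ) :
    TT (Bt B0 B1 s) (Bd B0 B1 s) =
      TT B0 B1 ∘L (Real.cos s • ContinuousLinearMap.id ℝ F + Real.sin s • J2 B0 B1) := by
  rw [TT, TT, J2_rot h]
  have hJ := J2_sq h
  simp only [ContinuousLinearMap.sub_comp, ContinuousLinearMap.comp_add,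
    ContinuousLinearMap.comp_smul, ContinuousLinearMap.comp_id, ContinuousLinearMap.comp_assoc,
    hJ, Bt, Bd, ContinuousLinearMap.add_comp, ContinuousLinearMap.smul_comp,
    ContinuousLinearMap.comp_neg]
  module

theorem TT_ker [CompleteSpace F] (h : Nons B0 B1) {v : F} (hv : TT B0 B1 v = 0) : v = 0 := by
  set J := J2 B0 B1 with hJdef
  have hJ : ∀ w, J (J w) = -w := fun w => by
    have := congrArg (fun L : F →L[ℝ] F => L w) (J2_sq h)
    simpa using this
  -- `w = J v`, `B0 v = B1 w`, `v = - J w`, `B0 (J w) = - B1 w`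
  have h0 : B0 v = B1 (J v) := by
    have : B0 v - B1 (J v) = 0 := hv
    exact sub_eq_zero.1 this
  -- `J B` relations
  have hB0 : ∀ w, B0 (J w) = J1 B0 B1 (B0 w) := fun w => by
    have := congrArg (fun L : F →L[ℝ] G => L w) (Bt_J2 h 0)
    simpa using this
  have hB1 : ∀ w, B1 (J w) = J1 B0 B1 (B1 w) := fun w => by
    have := congrArg (fun L : F →L[ℝ] G => L w) (Bd_J2 h 0)
    simpa using this
  have h00 : B0 (J v) = -B1 v := by
    rw [hB0, h0, ← hB1, hJ, map_neg]
  -- `g_t (J v) = v`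
  have h3 : ∀ t, gg B0 B1 t (J v) = v := by
    intro t
    have h4 : Bt B0 B1 t v = Bd B0 B1 t (J v) := by
      change Real.cos t • B0 v + Real.sin t • B1 v =
        (-Real.sin t) • B0 (J v) + Real.cos t • B1 (J v)
      rw [h00, ← h0]
      module
    have h5 : (Bt B0 B1 t).inverse (Bt B0 B1 t v) = v := by
      have := congrArg (fun L : F →L[ℝ] F => L v) (inv_comp (h t))
      simpa using this
    rw [gg, ContinuousLinearMap.comp_apply, ← h4, h5]
  have h6 : J (J v) = v := by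
    have hc : Continuous (gg B0 B1) := continuous_gg h
    have h7 := ContinuousLinearMap.intervalIntegral_apply
      (hc.intervalIntegrable (μ := volume) 0 π) (J v)
    have h8 : J (J v) = π⁻¹ • (∫ t in (0:ℝ)..π, gg B0 B1 t) (J v) := by
      rw [hJdef, J2]; rfl
    rw [h8, h7]
    simp_rw [h3]
    rw [intervalIntegral.integral_const, sub_zero, smul_smul, inv_mul_cancel₀ Real.pi_ne_zero,
      one_smul]
  rw [hJ] at h6
  have : (2:ℝ) • v = 0 := by
    rw [two_smul]
    nth_rewrite 1 [← h6]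
    simp
  simpa using this

theorem TT_isInvertible [FiniteDimensional ℝ F] (h : Nons B0 B1) : (TT B0 B1).IsInvertible := by
  have : CompleteSpace F := FiniteDimensional.complete ℝ F
  obtain ⟨e, he⟩ := h 0
  -- compose with the inverse of `B0` to get an endomorphism
  have hinj : Function.Injective (TT B0 B1) := by
    rw [injective_iff_map_eq_zero]
    intro v hv
    exact TT_ker h hv
  have : FiniteDimensional ℝ G := e.toLinearEquiv.finiteDimensional
  have hd : Module.finrank ℝ F = Module.finrank ℝ G := e.toLinearEquiv.finrank_eq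
  refine ⟨(LinearEquiv.ofInjectiveOfFinrankEq (TT B0 B1 : F →ₗ[ℝ] G) hinj
    hd).toContinuousLinearEquiv, ?_⟩
  ext v
  rfl

end

end Vale.Agent.P231.X1
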